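import Vale.Agent.P167.N.Kit
import Vale.Agent.P167.N.H174.ND.Nb
import Vale.Agent.P167.N.QB.Low
import Vale.Agent.P167.N.QB.Uns
import Vale.Agent.P167.N.QB.Cst
import Vale.Agent.P167.H411.Q.Zn

/-! generated from Vale.Agent.P167.H411.Q.Zn (q < 1 port) -/

set_option autoImplicit false

open Set Metric Filter Topology MeasureTheory

open scoped ComplexConjugate ContDiff

namespace Vale.Agent.P167.N.H411.Q

open Vale.Agent.P167.H411.Q Vale.Agent.P167.H411

open Vale.Agent.P167 Vale.Agent.P167.BR Vale.Agent.P167.FK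

open Vale.Agent.P167.H411.B7 (Shp)

open Vale.Agent.P167.QB (XG zS Nf Bq' dq)

open Vale.Agent.P167.H208.SH (F0 shp_bd shp_supp F0_nonneg F0_le F0_supp F0_sum)

open Vale.Agent.P167.H562.MAJ (core Sc mem_core)

open Vale.Agent.P167.H562.QM (NbP)

open Vale.Agent.P167.H519 (IsLim)

/-- Two-sided bounds of the one-point function. -/
theorem zN_bds {θ : ℝ} {P : Measure Cfg} (hθ0 : 0 < θ) (hθ1 : Ang θ)
    (hR0 : RSW (2 * Real.cos θ)) (hP : IsLim (2 * Real.cos θ) P) {χ : ℂ → ℝ} (h : Shp Complex.I χ) :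
    ∃ K₀ : ℝ, 1 ≤ K₀ ∧ ∀ K : ℝ, K₀ ≤ K → ∃ c C r0 : ℝ, 0 < c ∧ 0 < C ∧ ∀ (n : ℕ) (η : ℝ),
      r0 ≤ n * η → c * Nf θ K P (rN n η) ≤ zN θ χ n η ∧ zN θ χ n η ≤ C * Nf θ K P (rN n η) := by
  have hθ1_lt := hθ1.lt
  obtain ⟨K₀, hK₀, hb⟩ := bq_F0 h hθ0
  refine ⟨max K₀ (Vale.Agent.P167.N.QB.KW θ), hK₀.trans (le_max_left _ _), fun K hKK => ?_⟩
  have hK : K₀ ≤ K := (le_max_left _ _).trans hKK
  have hKW : Vale.Agent.P167.N.QB.KW θ ≤ K := (le_max_right _ _).trans hKK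
  have hK1 : 1 ≤ K := hK₀.trans hK
  obtain ⟨c, C, r0, hc, hC, hr0, hz⟩ := Vale.Agent.P167.N.QB.zS_bds hθ0 hθ1 hR0 hP hKW
  refine ⟨c, C, max r0 (8 * K), hc, hC, fun n η hn => ?_⟩
  have h1 : 8 * K ≤ n * η := (le_max_right _ _).trans hn
  have h2 : r0 ≤ n * η := (le_max_left _ _).trans hn
  obtain ⟨h3, -⟩ := rN_bd (n := n) (η := η) (by linarith)
  exact hz _ (by linarith) _ _ (hb K hK n η h1)

/-- The ratio of the exponents at two macroscopic scales is bounded from below. -/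
theorem nf_ratio {θ K : ℝ} {P : Measure Cfg} (hθ0 : 0 < θ) (hθ1 : Ang θ)
    (hR0 : RSW (2 * Real.cos θ)) (hP : IsLim (2 * Real.cos θ) P) (hK : 1 ≤ K) {η ρ : ℝ} (hη : 0 < η)
    (hρ : 0 < ρ) : ∃ c : ℝ, 0 < c ∧ ∀ᶠ n : ℕ in atTop,
      c ≤ Nf θ K P (rN n η) / Nf θ K P (rN n ρ) := by
  have hθ1_lt := hθ1.lt
  have hQ := QB.two_cos hθ0 hθ1
  have ht : 0 ≤ Real.tan θ := by
    have hpi := Real.pi_pos
    exact (Real.tan_pos_of_pos_of_lt_pi_div_two hθ0 (by linarith)).le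
  obtain ⟨C, d0, hC, hd0, hb⟩ := H174.ND.nb_comp hQ hR0 hP (Λ := max 1 (3 * ρ / η)) (le_max_left _ _)
  refine ⟨Real.exp (-(Real.tan θ * θ * C)), Real.exp_pos _, ?_⟩
  have h1 : Tendsto (fun n : ℕ => (n : ℝ) * η) atTop atTop :=
    tendsto_natCast_atTop_atTop.atTop_mul_const hη
  have h2 : Tendsto (fun n : ℕ => (n : ℝ) * ρ) atTop atTop :=
    tendsto_natCast_atTop_atTop.atTop_mul_const hρ
  filter_upwards [h1.eventually_ge_atTop (max 1 (66 * K * d0)), h2.eventually_ge_atTop 1] with n hn hn'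
  have hn1 : 1 ≤ (n : ℝ) * η := (le_max_left _ _).trans hn
  have hn2 : 66 * K * d0 ≤ (n : ℝ) * η := (le_max_right _ _).trans hn
  obtain ⟨a1, a2⟩ := rN_bd hn1
  obtain ⟨b1, b2⟩ := rN_bd hn'
  have hK0 : 0 < K := by linarith
  have key : NbP P (dq K (rN n ρ)) ≤ NbP P (dq K (rN n η)) + C := by
    rcases le_total (rN n ρ : ℝ) (rN n η) with h | h
    · have := H174.ND.NbP_mono (P := P) hP.1 (d := dq K (rN n ρ)) (d' := dq K (rN n η)) (by
        unfold QB.dq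
        exact mul_le_mul_of_nonneg_left h (by positivity))
      linarith
    · refine hb _ _ ?_ (by unfold QB.dq; exact mul_le_mul_of_nonneg_left h (by positivity)) ?_
      · unfold QB.dq
        rw [div_mul_eq_mul_div, one_mul, le_div_iff₀ (by positivity)]
        linarith
      · unfold QB.dq
        rw [mul_left_comm]
        refine mul_le_mul_of_nonneg_left ?_ (by positivity)
        have h3 : (n : ℝ) * ρ * 3 = 3 * ρ / η * (n * η) := by field_simp
        have h4 : 3 * ρ / η * (n * η) ≤ max 1 (3 * ρ / η) * rN n η :=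
          mul_le_mul (le_max_right _ _) (by linarith) (by linarith) (by positivity)
        linarith
  unfold QB.Nf
  rw [← Real.exp_sub]
  refine Real.exp_le_exp.2 ?_
  have h5 : 0 ≤ Real.tan θ * θ := by positivity
  nlinarith [mul_le_mul_of_nonneg_left key h5]

end Vale.Agent.P167.N.H411.Q
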