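import Vale.Agent.P167.N.Kit
import Vale.Agent.P167.H411.Q.NDefs

/-! generated from Vale.Agent.P167.H411.Q.NDefs (q < 1 port) -/

set_option autoImplicit false

open Set Metric Filter Topology MeasureTheory

open scoped ComplexConjugate ContDiff

namespace Vale.Agent.P167.N.H411.Q

open Vale.Agent.P167.H411.Q Vale.Agent.P167.H411

open Vale.Agent.P167.BVP (Flat Test)

open Vale.Agent.P167.CA (Dat)

open Vale.Agent.P167.CAQ (Fam)

open Vale.Agent.P167.H411.B7 (Shp)

/-- The data of a Dobrushin polygon: the three families with the same constant `s = 2 / (π - μ)`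
and the same filter, the junction `a` (a flat boundary point), the flat base point. -/
structure Tri (μ : ℝ) (S : Dat) (FD FF FW : Fam S) (a νa : ℂ) (ra : ℝ) (νp : ℂ) (rp : ℝ) : Prop where
  mu0 : 0 < μ
  mu1 : Ang μ
  LF : FF.L = FD.L
  LW : FW.L = FD.L
  sD : FD.s = 2 / (Real.pi - μ)
  sF : FF.s = 2 / (Real.pi - μ)
  sW : FW.s = 2 / (Real.pi - μ)
  flatA : Flat S.P a νa ra
  flatP : Flat S.P S.bp νp rp
  offA : S.bp ∉ ball a ra
  offP : a ∉ ball S.bp rp

end Vale.Agent.P167.N.H411.Q
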