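import Vale.Agent.P167.N.Kit
import Vale.Agent.P167.N.H411.Q.NDefs
import Vale.Agent.P167.H411.Q.TStep

/-! generated from Vale.Agent.P167.H411.Q.TStep (q < 1 port) -/

set_option autoImplicit false

open Set Metric Filter Topology MeasureTheory Bornology

open scoped ComplexConjugate ContDiff

namespace Vale.Agent.P167.N.H411.Q

open Vale.Agent.P167.H411.Q Vale.Agent.P167.H411

open Vale.Agent.P153.R2.R1 Vale.Agent.P167.H411.B7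

open Vale.Agent.P167.BVP (Flat Test lpot npot)

open Vale.Agent.P167.CA (Dat Pair)

open Vale.Agent.P167.CAQ (Fam Arc PotLim)

variable {S : Dat} {K K' : Set ℂ} {Y Z : ℂ → ℝ}

/-- The invisible charge compares the free and the wired potentials. -/
theorem T_one {μ : ℝ} {FD FF FW : Fam S} {a νa νp : ℂ} {ra rp : ℝ}
    (hT : Tri μ S FD FF FW a νa ra νp rp) (cF : FF.CORE) (cW : FW.CORE) {ψ g : ℂ → ℂ}
    (hP : Pair S.P ψ g) {χp χ : ℂ → ℝ} (hχp : Shp Complex.I χp) (hχ : Shp Complex.I χ)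
    {z : ℕ → ℝ → ℝ} (hlF : LocZ μ FF χp νp rp χ z) (hlW : LocZ μ FW χp νp rp χ z)
    {ε : ℝ} (hε : 0 < ε) (hε1 : ε ≤ 1 / 2) :
    ∃ θ > 0, θ ≤ 1 / 2 ∧ ∀ ρ, 0 < ρ → ρ ≤ θ * rp → ∃ T : ℕ → ℝ, ∀ c ν r, Flat S.P c ν r →
      S.bp ∉ ball c r → ρ ≤ θ * r → ∀ η, 0 < η → η ≤ θ * r → ∀ᶠ n in FD.L,
        |μ * (FF.U n (fun z => fb χ ν c η z - fb χp νp S.bp ρ z) -
          FW.U n (fun z => fb χ ν c η z - fb χp νp S.bp ρ z)) - T n| ≤ 6 * ε := by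
  obtain ⟨tF, htF, hlF⟩ := hlF
  obtain ⟨tW, htW, hlW⟩ := hlW
  obtain ⟨θF, hθF, hF1⟩ := hlF ε hε
  obtain ⟨θW, hθW, hW1⟩ := hlW ε hε
  have hrp := hT.flatP.pos
  refine ⟨min (1 / 2) (min θF θW), by positivity, min_le_left _ _, fun ρ hρ hρ1 =>
    ⟨fun n => Real.log (tF ρ n) - Real.log (tW ρ n), fun c ν r hFc hcp hρr η hη hηr => ?_⟩⟩
  have hr := hFc.pos
  have e0 : min (1 / 2) (min θF θW) ≤ 1 / 2 := min_le_left _ _
  have e2 : min (1 / 2) (min θF θW) ≤ θF := (min_le_right _ _).trans (min_le_left _ _)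
  have e3 : min (1 / 2) (min θF θW) ≤ θW := (min_le_right _ _).trans (min_le_right _ _)
  have hρrp : ρ < rp := hρ1.trans_lt (by nlinarith)
  have hηr' : η < r := hηr.trans_lt (by nlinarith)
  have hφp := fb_bp hχp hT.flatP hρ hρrp
  have hφ := fb_bp hχ hFc hη hηr'
  have hf : S.FF fun z => fb χ ν c η z - fb χp νp S.bp ρ z :=
    ff_of hφ.test hφp.test (by rw [hφ.mass, hφp.mass])
  have e1 : (fun w => -μ * fb χ ν c η w + μ * fb χp νp S.bp ρ w) =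
      fun w => -μ * (fb χ ν c η w - fb χp νp S.bp ρ w) := by
    funext w; ring
  have a1 := hF1 ρ hρ (hρ1.trans (mul_le_mul_of_nonneg_right e2 hrp.le)) c ν r hFc hcp
    (hρr.trans (mul_le_mul_of_nonneg_right e2 hr.le)) η hη
    (hηr.trans (mul_le_mul_of_nonneg_right e2 hr.le))
  have a2 := hW1 ρ hρ (hρ1.trans (mul_le_mul_of_nonneg_right e3 hrp.le)) c ν r hFc hcp
    (hρr.trans (mul_le_mul_of_nonneg_right e3 hr.le)) η hη
    (hηr.trans (mul_le_mul_of_nonneg_right e3 hr.le))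
  rw [e1] at a1 a2
  have b1 := U_of_loc cF hP hf hε hε1 a1
  have b2 := U_of_loc cW hP hf hε hε1 a2
  rw [hT.LF, hT.sF] at b1
  rw [hT.LW, hT.sW] at b2
  filter_upwards [b1, b2] with n d1 d2
  obtain ⟨d3, d4⟩ := d1
  obtain ⟨d5, d6⟩ := d2
  have z0 : z n η ≠ 0 := fun h0 => by rw [h0, mul_zero] at d3; exact lt_irrefl _ d3
  rw [Real.log_mul (htF ρ n).ne' z0] at d4
  rw [Real.log_mul (htW ρ n).ne' z0] at d6
  rw [abs_le] at d4 d6 ⊢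
  constructor <;> linarith [d4.1, d4.2, d6.1, d6.2]

/-- **`Y - Z` is almost constant near any two flat boundary points.** -/
theorem T_hyp {μ : ℝ} {FD FF FW : Fam S} {a νa νp : ℂ} {ra rp : ℝ}
    (hT : Tri μ S FD FF FW a νa ra νp rp) (cF : FF.CORE) (cW : FW.CORE) {χp : ℂ → ℝ}
    (hχp : Shp Complex.I χp) {zz : (ℂ → ℝ) → ℕ → ℝ → ℝ} (hz : NDz μ FF FW νp rp χp zz)
    {ψ g : ℂ → ℂ} (hP : Pair S.P ψ g)
    (hK : Arc S K) (hK' : Arc S K') (hY : PotLim S K Y) (hZ : PotLim S K' Z)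
    {U : Filter ℕ} [U.NeBot] (hU : U ≤ FD.L)
    (limY : ∀ f, S.FF f → Tendsto (fun n : ℕ => FD.U n f - FF.U n f) U (𝓝 (∫ z, f z * Y z)))
    (limZ : ∀ f, S.FF f → Tendsto (fun n : ℕ => FD.U n f - FW.U n f) U (𝓝 (∫ z, f z * Z z)))
    {q q' ν ν' : ℂ} {r r' : ℝ} (hF : Flat S.P q ν r) (hF' : Flat S.P q' ν' r')
    (hq : S.bp ∉ ball q r) (hq' : S.bp ∉ ball q' r') {ε : ℝ} (hε : 0 < ε) :
    ∃ δ > 0, ∀ w ∈ S.P, ∀ w' ∈ S.P, ‖w - q‖ < δ → ‖w' - q'‖ < δ →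
      |(Y w - Z w) - (Y w' - Z w')| ≤ ε := by
  have hμ := hT.mu0
  obtain ⟨C₁, β₁, -, hβ₁, avY⟩ := avg_pot hK hY
  obtain ⟨C₂, β₂, -, hβ₂, avZ⟩ := avg_pot hK' hZ
  have k1 : ∀ᶠ κ : ℝ in 𝓝[>] 0, κ < 1 / 8 :=
    nhdsWithin_le_nhds (gt_mem_nhds (show (0 : ℝ) < 1 / 8 by norm_num))
  have k2 : ∀ᶠ κ : ℝ in 𝓝[>] 0, 0 < κ := self_mem_nhdsWithin
  obtain ⟨κ, hk1, hk2, hk3, hk4⟩ := ((exists_kappa (C := C₁) hβ₁ (ε := ε / 8) (by positivity)).and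
    ((exists_kappa (C := C₂) hβ₂ (ε := ε / 8) (by positivity)).and (k1.and k2))).exists
  obtain ⟨χ, hχ, hs⟩ := exists_small hk4 (by linarith)
  obtain ⟨hlF, hlW⟩ := hz χ hχ
  have hε₁0 : 0 < min (1 / 2) (μ * ε / 24) := by positivity
  obtain ⟨θ, hθ0, hθ1, one⟩ := T_one hT cF cW hP hχp hχ hlF hlW hε₁0 (min_le_left _ _)
  have hr := hF.pos
  have hr' := hF'.pos
  have hrp := hT.flatP.pos
  have hm0 : 0 < min rp (min (r / 2) (r' / 2)) := by positivity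
  have hm1 : min rp (min (r / 2) (r' / 2)) ≤ rp := min_le_left _ _
  have hm2 : min rp (min (r / 2) (r' / 2)) ≤ r / 2 := (min_le_right _ _).trans (min_le_left _ _)
  have hm3 : min rp (min (r / 2) (r' / 2)) ≤ r' / 2 :=
    (min_le_right _ _).trans (min_le_right _ _)
  generalize min rp (min (r / 2) (r' / 2)) = m at hm0 hm1 hm2 hm3
  have hρ0 : 0 < θ * m := by positivity
  have hρ1 : θ * m ≤ θ * rp := mul_le_mul_of_nonneg_left hm1 hθ0.le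
  have hρrp : θ * m < rp := hρ1.trans_lt (by nlinarith)
  have hφp := fb_bp hχp hT.flatP hρ0 hρrp
  obtain ⟨T, hTT⟩ := one (θ * m) hρ0 hρ1
  refine ⟨θ * m / 4, by positivity, fun w hw w' hw' hwq hwq' => ?_⟩
  obtain ⟨c, η, f1, f2, f3, f4, f5, f6⟩ := T_point hk1 hk2 (avY κ hk4 hk3.le χ hχ hs)
    (avZ κ hk4 hk3.le χ hχ hs) hF hq hθ0 hθ1 hm0 hm2 hw hwq
  obtain ⟨c', η', f1', f2', f3', f4', f5', f6'⟩ := T_point hk1 hk2 (avY κ hk4 hk3.le χ hχ hs)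
    (avZ κ hk4 hk3.le χ hχ hs) hF' hq' hθ0 hθ1 hm0 hm3 hw' hwq'
  have hφ := fb_bp hχ f1 f3 (f4.trans_lt (by nlinarith))
  have hφ' := fb_bp hχ f1' f3' (f4'.trans_lt (by nlinarith))
  have b := hU (hTT c ν (r / 2) f1 f2 (mul_le_mul_of_nonneg_left hm2 hθ0.le) η f3 f4)
  have b' := hU (hTT c' ν' (r' / 2) f1' f2' (mul_le_mul_of_nonneg_left hm3 hθ0.le) η' f3' f4')
  have hA2 := T_lim hμ hK hK' hY hZ limY limZ hφ.test hφ.mass hφ'.test hφ'.mass hφp.test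
    (min_le_right _ _) b b'
  rw [abs_le] at hA2 f5 f6 f5' f6' ⊢
  constructor <;> linarith [hA2.1, hA2.2, f5.1, f5.2, f6.1, f6.2, f5'.1, f5'.2, f6'.1, f6'.2]

end Vale.Agent.P167.N.H411.Q
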