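import Vale.Agent.P167.N.Kit
import Vale.Agent.P167.N.H411.Q.NDefs
import Vale.Agent.P167.H411.Q.Out

/-! generated from Vale.Agent.P167.H411.Q.Out (q < 1 port) -/

set_option autoImplicit false

open Set Metric Filter Topology MeasureTheory Bornology

open scoped ComplexConjugate ContDiff

namespace Vale.Agent.P167.N.H411.Q

open Vale.Agent.P167.H411.Q Vale.Agent.P167.H411

open Vale.Agent.P153.R2.R1 Vale.Agent.P167.H411.B7

open Vale.Agent.P167.BVP (Flat Test lpot npot)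

open Vale.Agent.P167.CA (Dat Pair)

open Vale.Agent.P167.CAQ (Fam Arc PotLim)

variable {S : Dat} {a : ℂ} {ψ : ℂ → ℂ} {c νc : ℂ} {rc : ℝ} {d νd : ℂ} {rd : ℝ} {xc xd : ℝ} {d' : ℂ}

/-- **Output**: the functional of the Dobrushin polygon with the charges `- μ` at `c`, `+ μ` at `d`. -/
theorem out_log {μ : ℝ} {FD FF FW : Fam S} {νa νp : ℂ} {ra rp : ℝ}
    (hT : Tri μ S FD FF FW a νa ra νp rp) (cD : FD.CORE) (cF : FF.CORE)
    {χp χ : ℂ → ℝ} (hχp : Shp Complex.I χp) (hχ : Shp Complex.I χ) {z : ℕ → ℝ → ℝ}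
    (hz : LocZ μ FF χp νp rp χ z)
    (h : IsU ψ S.P a S.bp) (hinj : InjOn ψ {z | 0 ≤ z.im})
    (hne : ∀ z : ℂ, 0 ≤ z.im → ψ z ≠ S.bp)
    (hid : ∀ f, S.FF f → Tendsto (fun n : ℕ => FD.U n f - FF.U n f) FD.L
      (𝓝 (1 / Real.pi * ∫ z, f z * Real.log ‖ginv ψ z‖)))
    (hM : Marks S a ψ c νc rc d νd rd xc xd d') {ε : ℝ} (hε : 0 < ε) :
    ∃ θ > 0, ∀ η η' : ℝ, 0 < η → η ≤ θ → 0 < η' → η' ≤ θ → ∀ᶠ n : ℕ in FD.L,
      0 < FD.V n (fun w => -μ * fb χ νc c η w + μ * fb χ νd d η' w) ∧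
      |Real.log (FD.V n (fun w => -μ * fb χ νc c η w + μ * fb χ νd d η' w)) -
        (Real.log (z n η) - Real.log (z n η') +
          μ / Real.pi * (Real.log |xc| - Real.log |xd|) +
          2 / (Real.pi - μ) * μ ^ 2 / Real.pi *
            ((-2 * Real.log ‖d'‖ + (2 * Real.log η' + JJ 0 Complex.I χ χ)) / 2 -
              Real.log |xc - xd|))| ≤ ε := by
  have hμ := hT.mu0
  have hμ1 := hT.mu1.lt
  have hπ := Real.pi_pos
  have hs0 : 0 < 2 / (Real.pi - μ) := by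
    have : 0 < Real.pi - μ := by linarith
    positivity
  set s : ℝ := 2 / (Real.pi - μ) with hs
  have hP := Vale.Agent.P167.H411.Q.pair_of_isU h hinj
  have hg := ginv_conf h hinj
  have hrc := hM.flatC.pos
  have hrd := hM.flatD.pos
  have hrp := hT.flatP.pos
  set A : ℝ := s * μ ^ 2 with hA
  have hA0 : 0 < A := by positivity
  set e₀ : ℝ := min (1 / 2) (ε / (4 * (7 + μ))) with he₀
  have he₀0 : 0 < e₀ := by positivity
  have he₀1 : (7 + μ) * e₀ ≤ ε / 4 := by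
    have : e₀ ≤ ε / (4 * (7 + μ)) := min_le_right _ _
    rw [le_div_iff₀ (by positivity)] at this
    linarith
  obtain ⟨t, ht, hloc⟩ := hz
  obtain ⟨θ₁, hθ₁, hloc⟩ := hloc e₀ he₀0
  -- the radius at `p`
  set r : ℝ := min rp (min (rc / 2) (rd / 2)) with hr
  have hr0 : 0 < r := by positivity
  have hr1 : r ≤ rp := min_le_left _ _
  have hr2 : r ≤ rc / 2 := (min_le_right _ _).trans (min_le_left _ _)
  have hr3 : r ≤ rd / 2 := (min_le_right _ _).trans (min_le_right _ _)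
  have hFp := flat_le hT.flatP hr0 hr1
  have hap : a ∉ ball S.bp r := fun hx => hT.offP (ball_subset_ball hr1 hx)
  -- the scale at `p`
  set ρ : ℝ := min (θ₁ * r) (min (r / 8400) (ε * r / (104 * A))) with hρ
  have hρ0 : 0 < ρ := by positivity
  have hρ1 : ρ ≤ θ₁ * r := min_le_left _ _
  have hρ2 : ρ ≤ r / 8400 := (min_le_right _ _).trans (min_le_left _ _)
  have hρ3 : A * (26 * (ρ / r)) ≤ ε / 4 := by
    have h1 : ρ ≤ ε * r / (104 * A) := (min_le_right _ _).trans (min_le_right _ _)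
    rw [le_div_iff₀ (by positivity)] at h1
    rw [mul_div_assoc', mul_div_assoc', div_le_iff₀ hr0]
    linarith
  have hρr : ρ < r := by linarith
  have hφp := fb_bp hχp hFp hρ0 hρr
  -- the scales at the marks
  set θ : ℝ := min (min (θ₁ * rc) (θ₁ * rd)) (min (min (rc / 8400) (rd / 8400))
    (min (ε * rc / (4 * (A * 13 + μ / Real.pi * 40)))
      (ε * rd / (4 * (A * 2713 + μ / Real.pi * 40))))) with hθ
  have hθ0 : 0 < θ := by positivity
  have i1 : θ ≤ θ₁ * rc := (min_le_left _ _).trans (min_le_left _ _)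
  have i2 : θ ≤ θ₁ * rd := (min_le_left _ _).trans (min_le_right _ _)
  have i3 : θ ≤ rc / 8400 := (min_le_right _ _).trans ((min_le_left _ _).trans (min_le_left _ _))
  have i4 : θ ≤ rd / 8400 := (min_le_right _ _).trans ((min_le_left _ _).trans (min_le_right _ _))
  have i5 : θ ≤ ε * rc / (4 * (A * 13 + μ / Real.pi * 40)) :=
    (min_le_right _ _).trans ((min_le_right _ _).trans (min_le_left _ _))
  have i6 : θ ≤ ε * rd / (4 * (A * 2713 + μ / Real.pi * 40)) :=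
    (min_le_right _ _).trans ((min_le_right _ _).trans (min_le_right _ _))
  clear_value θ ρ r e₀ A
  refine ⟨θ, hθ0, fun η η' hη hηθ hη' hη'θ => ?_⟩
  have j1 : η ≤ rc / 8400 := hηθ.trans i3
  have j2 : η' ≤ rd / 8400 := hη'θ.trans i4
  have hφ := fb_bp hχ hM.flatC hη (by linarith)
  have hφ' := fb_bp hχ hM.flatD hη' (by linarith)
  have hJ := JJ_fb hχ (c := d) hM.flatD.norm hη'
  have a1 := hloc ρ hρ0 (hρ1.trans (mul_le_mul_of_nonneg_left hr1 hθ₁.le)) c νc rc hM.flatC hM.pC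
    (hρ1.trans (mul_le_mul_of_nonneg_left (by linarith) hθ₁.le)) η hη (hηθ.trans i1)
  have a2 := hloc ρ hρ0 (hρ1.trans (mul_le_mul_of_nonneg_left hr1 hθ₁.le)) d νd rd hM.flatD hM.pD
    (hρ1.trans (mul_le_mul_of_nonneg_left (by linarith) hθ₁.le)) η' hη' (hη'θ.trans i2)
  generalize fb χ νc c η = φ at *
  generalize fb χ νd d η' = φ' at *
  generalize fb χp νp S.bp ρ = φp at *
  have hff : S.FF fun z => φ z - φ' z := ff_of hφ.test hφ'.test (by rw [hφ.mass, hφ'.mass])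
  have hfc : S.FF fun z => φ z - φp z := ff_of hφ.test hφp.test (by rw [hφ.mass, hφp.mass])
  have hfd : S.FF fun z => φ' z - φp z := ff_of hφ'.test hφp.test (by rw [hφ'.mass, hφp.mass])
  have e1 : (fun w => -μ * φ w + μ * φp w) = fun w => -μ * (φ w - φp w) := by funext w; ring
  have e2 : (fun w => -μ * φ' w + μ * φp w) = fun w => -μ * (φ' w - φp w) := by funext w; ring
  have e3 : (fun w => -μ * φ w + μ * φ' w) = fun w => -μ * (φ w - φ' w) := by funext w; ring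
  rw [e1] at a1
  rw [e2] at a2
  rw [e3]
  have b1 := U_of_loc cF hP hfc he₀0 (by rw [he₀]; exact min_le_left _ _) a1
  have b2 := U_of_loc cF hP hfd he₀0 (by rw [he₀]; exact min_le_left _ _) a2
  rw [hT.LF, hT.sF] at b1 b2
  have hf' := CA.FF.smul hff (-μ)
  have c1 := (log_V cD hP hf').eventually (Metric.ball_mem_nhds 0 he₀0)
  obtain ⟨k, K, hk, c2⟩ := CAQ.V_bounds cD hP hf'
  have c3 := (hid _ hff).eventually (Metric.ball_mem_nhds _ he₀0)
  -- energies
  have hlin : ∀ (F : Fam S) (n : ℕ) {f k : ℂ → ℝ}, Test S.P f → Test S.P k →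
      F.U n (fun z => f z - k z) = F.U n f - F.U n k := fun F n f k hf hk =>
    CAQ.U_sub F n (integrable_test hf) (integrable_test hk)
  have g1 := en_diff hg hφ.test hφp.test
  have g2 := en_diff hg hφ'.test hφp.test
  have g3 := en_diff hg hφ.test hφ'.test
  have g4 := en_p_close h hinj hne hFp hap hρ2 hφp hφ hφ'
    (far_bp hφ hM.distC (by linarith) hr2) (far_bp hφ' hM.distD (by linarith) hr3)
  have g5 : |CA.en (ginv ψ) φ φ' + 1 / Real.pi * Real.log ‖ginv ψ c - ginv ψ d‖| ≤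
      13 * (η / rc + η' / rd) := en_ab h hinj hM.flatC hM.flatD hM.pC hM.pD hM.dC hM.cD j1 j2 hφ hφ'
  have g6 : |CA.en (ginv ψ) φ' φ' + 1 / (2 * Real.pi) * (-2 * Real.log ‖d'‖ + JJ d νd φ' φ')| ≤
      2700 * (η' / rd) := en_bb h hinj hM.flatD hM.pD j2 hφ' hφ' hM.xD hM.der
  have g7 := ll_c h hinj hM.flatC hM.pC hM.aC j1 hφ
  have g8 := ll_c h hinj hM.flatD hM.pD hM.aD j2 hφ'
  have xc' : ginv ψ c = xc := by rw [← hM.xC]; exact ginv_apply hinj (by simp)
  have xd' : ginv ψ d = xd := by rw [← hM.xD]; exact ginv_apply hinj (by simp)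
  rw [xc', xd', ← Complex.ofReal_sub, Complex.norm_real, Real.norm_eq_abs] at g5
  rw [xc', Complex.norm_real, Real.norm_eq_abs] at g7
  rw [xd', Complex.norm_real, Real.norm_eq_abs] at g8
  rw [hJ] at g6
  have g9 : ∫ z, (φ z - φ' z) * Real.log ‖ginv ψ z‖ = ll ψ φ - ll ψ φ' := by
    unfold ll
    rw [← integral_sub (int_ll h hinj hφ.test) (int_ll h hinj hφ'.test)]
    refine integral_congr_ae (Eventually.of_forall fun z => ?_)
    simp only
    ring
  rw [g9] at c3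
  filter_upwards [b1, b2, c1, c2, c3] with n hb1 hb2 hc1 hc2 hc3
  obtain ⟨p1, q1⟩ := hb1
  obtain ⟨p2, q2⟩ := hb2
  refine ⟨hk.trans_le hc2.1, ?_⟩
  have z1 : z n η ≠ 0 := fun h0 => by rw [h0, mul_zero] at p1; exact lt_irrefl _ p1
  have z2 : z n η' ≠ 0 := fun h0 => by rw [h0, mul_zero] at p2; exact lt_irrefl _ p2
  rw [Real.log_mul (ht ρ n).ne' z1, hlin FF n hφ.test hφp.test, g1] at q1
  rw [Real.log_mul (ht ρ n).ne' z2, hlin FF n hφ'.test hφp.test, g2] at q2
  rw [dist_zero_right, Real.norm_eq_abs, CAQ.U_smul, CA.en_smul, g3, hT.sD] at hc1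
  rw [Real.dist_eq] at hc3
  have k1 := alg_out (l := Real.log (FD.V n fun w => -μ * (φ w - φ' w)))
    (UD := FD.U n fun z => φ z - φ' z) (UF := FF.U n fun z => φ z - φ' z)
    (Uc := FF.U n φ - FF.U n φp) (Ud := FF.U n φ' - FF.U n φp)
    (t := Real.log (t ρ n)) (zc := Real.log (z n η)) (zd := Real.log (z n η')) (e₀ := e₀) hμ hs0
    (by
      have e : Real.log (FD.V n fun w => -μ * (φ w - φ' w)) - μ * FD.U n (fun z => φ z - φ' z) +
          s / 2 * μ ^ 2 * (CA.en (ginv ψ) φ φ - 2 * CA.en (ginv ψ) φ φ' + CA.en (ginv ψ) φ' φ') =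
          Real.log (FD.V n fun w => -μ * (φ w - φ' w)) + -μ * FD.U n (fun z => φ z - φ' z) +
          s / 2 * ((-μ) ^ 2 *
            (CA.en (ginv ψ) φ φ - 2 * CA.en (ginv ψ) φ φ' + CA.en (ginv ψ) φ' φ')) := by ring
      rw [e]; exact hc1.le)
    hc3.le (by rw [hlin FF n hφ.test hφ'.test]; ring) q1 q2 g4 g5 g6 g7 g8
  rw [← hA] at k1
  refine k1.trans ?_
  have w0 : 0 < μ / Real.pi := by positivity
  have w1 : (A * 13 + μ / Real.pi * 40) * (η / rc) ≤ ε / 4 := by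
    have h1 := hηθ.trans i5
    rw [le_div_iff₀ (by positivity)] at h1
    rw [mul_div_assoc', div_le_iff₀ hrc]
    linarith
  have w2 : (A * 2713 + μ / Real.pi * 40) * (η' / rd) ≤ ε / 4 := by
    have h1 := hη'θ.trans i6
    rw [le_div_iff₀ (by positivity)] at h1
    rw [mul_div_assoc', div_le_iff₀ hrd]
    linarith
  have w3 : (7 + μ) * e₀ + A * (26 * (ρ / r) + 13 * (η / rc + η' / rd) + 2700 * (η' / rd)) +
      μ / Real.pi * (40 * (η / rc) + 40 * (η' / rd)) = (7 + μ) * e₀ + A * (26 * (ρ / r)) +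
      (A * 13 + μ / Real.pi * 40) * (η / rc) + (A * 2713 + μ / Real.pi * 40) * (η' / rd) := by ring
  rw [w3]
  linarith

end Vale.Agent.P167.N.H411.Q
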