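import Vale.Agent.P167.N.Kit
import Vale.Agent.P167.N.H411.Q.NDefs
import Vale.Agent.P167.H411.Q.NDefs

/-!
# P167, the range `0 < q < 1`: the invisible charge `- μ` with a given normalisation
-/

set_option autoImplicit false

open Set Metric Filter Topology MeasureTheory

open scoped ComplexConjugate

namespace Vale.Agent.P167.N.H411.Q

open Vale.Agent.P167.H411.Q Vale.Agent.P167.H411

open Vale.Agent.P167.BVP (Flat Test)

open Vale.Agent.P167.CA (Dat)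

open Vale.Agent.P167.CAQ (Fam)

open Vale.Agent.P167.H411.B7 (Shp)

/-- The charge `- μ` at a flat boundary point is invisible, with the normalisation `t`. -/
def LocT (μ : ℝ) {S : Dat} (F : Fam S) (χp : ℂ → ℝ) (νp : ℂ) (rp : ℝ) (χ : ℂ → ℝ)
    (z : ℕ → ℝ → ℝ) (t : ℝ → ℕ → ℝ) : Prop :=
  (∀ ρ n, 0 < t ρ n) ∧ ∀ ε : ℝ, 0 < ε → ∃ θ : ℝ, 0 < θ ∧
    ∀ ρ : ℝ, 0 < ρ → ρ ≤ θ * rp → ∀ (c ν : ℂ) (r : ℝ), Flat S.P c ν r → S.bp ∉ ball c r →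
      ρ ≤ θ * r → ∀ η : ℝ, 0 < η → η ≤ θ * r → ∀ᶠ n : ℕ in F.L,
        |F.V n (fun w => -μ * fb χ ν c η w + μ * fb χp νp S.bp ρ w) - t ρ n * z n η| ≤
          ε * (t ρ n * z n η)

variable {μ : ℝ} {S : Dat} {F : Fam S} {χp : ℂ → ℝ} {νp : ℂ} {rp : ℝ} {χ : ℂ → ℝ}
  {z : ℕ → ℝ → ℝ} {t t' : ℝ → ℕ → ℝ}

theorem LocT.locZ (h : LocT μ F χp νp rp χ z t) : LocZ μ F χp νp rp χ z :=
  ⟨t, h.1, h.2⟩

/-- Change of the normalisation. -/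
theorem LocT.cmp (hrp : 0 < rp) (h : LocT μ F χp νp rp χ z t) (ht : ∀ ρ n, 0 < t' ρ n)
    (hc : ∀ ε : ℝ, 0 < ε → ∃ θ : ℝ, 0 < θ ∧ ∀ ρ : ℝ, 0 < ρ → ρ ≤ θ → ∀ᶠ n : ℕ in F.L,
      |t ρ n - t' ρ n| ≤ ε * t' ρ n) : LocT μ F χp νp rp χ z t' := by
  refine ⟨ht, fun ε hε => ?_⟩
  have hpos := h.1
  obtain ⟨δ, hδ0, hδ1, hδε⟩ : ∃ δ : ℝ, 0 < δ ∧ δ ≤ 1 ∧ 3 * δ ≤ ε :=
    ⟨min 1 (ε / 3), by positivity, min_le_left _ _, by
      have : min 1 (ε / 3) ≤ ε / 3 := min_le_right _ _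
      linarith⟩
  obtain ⟨θ, hθ, h⟩ := h.2 δ hδ0
  obtain ⟨θ', hθ', hc⟩ := hc δ hδ0
  refine ⟨min θ (θ' / rp), by positivity, fun ρ hρ hρp c ν r hF hb hρr η hη hηr => ?_⟩
  have hr := hF.pos
  have e1 : min θ (θ' / rp) * rp ≤ θ * rp := mul_le_mul_of_nonneg_right (min_le_left _ _) hrp.le
  have e2 : min θ (θ' / rp) * r ≤ θ * r := mul_le_mul_of_nonneg_right (min_le_left _ _) hr.le
  have e3 : min θ (θ' / rp) * rp ≤ θ' := by
    calc min θ (θ' / rp) * rp ≤ θ' / rp * rp := mul_le_mul_of_nonneg_right (min_le_right _ _) hrp.le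
      _ = θ' := by field_simp
  filter_upwards [h ρ hρ (hρp.trans e1) c ν r hF hb (hρr.trans e2) η hη (hηr.trans e2),
    hc ρ hρ (hρp.trans e3)] with n h1 h2
  have t0 := ht ρ n
  have hz : 0 ≤ t ρ n * z n η := by
    have := (abs_nonneg _).trans h1
    exact (mul_nonneg_iff_of_pos_left hδ0).1 this
  obtain ⟨V, hV⟩ : ∃ V, V = F.V n (fun w => -μ * fb χ ν c η w + μ * fb χp νp S.bp ρ w) :=
    ⟨_, rfl⟩
  rw [← hV] at h1 ⊢
  have ht1 : 0 < t ρ n := hpos ρ n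
  have hz0 : 0 ≤ z n η := (mul_nonneg_iff_of_pos_left ht1).1 hz
  have h3 : |t ρ n * z n η - t' ρ n * z n η| ≤ δ * (t' ρ n * z n η) := by
    rw [← sub_mul, abs_mul, abs_of_nonneg hz0]
    calc |t ρ n - t' ρ n| * z n η ≤ δ * t' ρ n * z n η := mul_le_mul_of_nonneg_right h2 hz0
      _ = _ := by ring
  have h4 : t ρ n * z n η ≤ 2 * (t' ρ n * z n η) := by
    have := (abs_le.1 h3).2
    have h5 : 0 ≤ t' ρ n * z n η := by positivity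
    nlinarith
  have h5 : 0 ≤ t' ρ n * z n η := by positivity
  calc |V - t' ρ n * z n η| ≤ |V - t ρ n * z n η| + |t ρ n * z n η - t' ρ n * z n η| := abs_sub_le _ _ _
    _ ≤ δ * (t ρ n * z n η) + δ * (t' ρ n * z n η) := add_le_add h1 h3
    _ ≤ δ * (2 * (t' ρ n * z n η)) + δ * (t' ρ n * z n η) := by gcongr
    _ = 3 * δ * (t' ρ n * z n η) := by ring
    _ ≤ ε * (t' ρ n * z n η) := mul_le_mul_of_nonneg_right hδε h5

end Vale.Agent.P167.N.H411.Q
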