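import Vale.Agent.P167.N.Kit
import Vale.Agent.P167.N.H542.Q.FamB
import Vale.Agent.P167.H411.Q.Kind

/-! generated from Vale.Agent.P167.H411.Q.Kind (q < 1 port) -/

set_option autoImplicit false

namespace Vale.Agent.P167.N.H411.Q

open Vale.Agent.P167.H411.Q Vale.Agent.P167.H411

open Finset Filter Topology Vale.Agent.P167 Vale.Agent.P167.BR Vale.Agent.P167.FK

open Vale.Agent.P167.E6 (IsPolygon Encloses)

open Vale.Agent.P167.QB (XG gB)

open Vale.Agent.P167.QX (wB XB lo hi)

open Vale.Agent.P167.H825.Q (Bc qS kS bdG)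

open Vale.Agent.P167.H718 (Dob)

open Vale.Agent.P167.CA (cms)

open Vale.Agent.P167.FKA (Loc)

/-- **The value of the family** `w`. -/
theorem V_kind {θ β : ℝ} (S : CA.Dat) (w : Bool) (h0 : 0 < θ) (h1 : Ang θ)
    {L : Filter ℕ} (hL : L ≤ atTop) {η : ℕ → Cfg}
    (hη : ∀ᶠ n in L, Dob (η n) (S.D n) (qS S n) (kS S (bcw w) n)) :
    ∀ᶠ n : ℕ in L, ∀ F : ℤ × ℤ → ℝ, Ex (2 * Real.cos θ) (S.D n) (η n)
      (QX.XB θ β (qS S n) (S.D n) (kS S (bcw w) n) F) =
        Ex (2 * Real.cos θ) (Dw S w n) eta0 (XG θ (qw S w n) (Dw S w n) (S.l * n)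
          fun z => F (z - ow w)) := by
  have h1_lt := h1.lt
  have hpos := H542.Q.BD.cos_pos h0 h1
  filter_upwards [hη, hL (eventually_gt_atTop 0)] with n hn hn0 F
  have hq : IsPolygon (qS S n) := Enl.isPolygon_qN hn0 S.poly _
  have hD : Encloses (qS S n) (S.D n) := Enl.encloses_qN hn0 S.poly S.enc _
  cases w with
  | true =>
    have h2 := (H980.ND.wired_free hq hD hn hpos θ β F).2.2.2
    refine h2.trans ?_
    show Ex (2 * Real.cos θ) (Dw S true n) eta0 _ = _
    congr 1
    funext ω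
    exact XB_free (poly_w S true hn0) (encl_w S true hn0) θ β _ ω
  | false =>
    have e1 : Dw S false n = S.D n := by
      ext v
      rw [mem_Dw]
      simp [ow]
    have e2 : qw S false n = qS S n := by
      funext i
      simp [qw, ow]
    have e3 : (fun z => F (z - ow false)) = F := by
      funext z
      simp [ow]
    rw [e1, e2, e3]
    have h2 := CAQ.J.ex_dob hq hD le_rfl hn (H980.ND.dob_free (S.D n) (qS S n)) hpos
      (loc_XB θ β (k := S.l * n) (qS S n) (S.D n) F)
    refine h2.trans ?_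
    congr 1
    funext ω
    exact XB_free hq hD θ β _ ω

end Vale.Agent.P167.N.H411.Q
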