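import Vale.Agent.P167.N.Kit
import Vale.Agent.P167.N.H208.SH.Shift
import Vale.Agent.P167.N.H411.Q.Kind
import Vale.Agent.P167.N.H542.Q.FamB
import Vale.Agent.P167.H411.Q.Sup

/-! generated from Vale.Agent.P167.H411.Q.Sup (q < 1 port) -/

set_option autoImplicit false

namespace Vale.Agent.P167.N.H411.Q

open Vale.Agent.P167.H411.Q Vale.Agent.P167.H411

open Finset Filter Topology MeasureTheory Vale.Agent.P167 Vale.Agent.P167.BR Vale.Agent.P167.FK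

open scoped ComplexConjugate

open Vale.Agent.P167.E6 (IsPolygon Encloses pt)

open Vale.Agent.P167.H135 (Mov rk tra)

open Vale.Agent.P167.H562.QM (FltQ)

open Vale.Agent.P167.QB (XG zS Nf Bq' dlt)

open Vale.Agent.P167.H825.Q (Bc qS kS bdG)

open Vale.Agent.P167.H718 (Dob)

open Vale.Agent.P167.CA (cms)

open Vale.Agent.P167.H436 (ero mem_ero)

open Vale.Agent.P167.H208.SH (F0 shp_bd shp_lip shp_supp F0_nonneg F0_le F0_supp F0_sum cms_cmp)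

open Vale.Agent.P167.H411.B7 (Shp)

open Vale.Agent.P167.BVP (Flat Test)

/-- **Replacement of the bump** at the flat point by the lattice bump in the frame. -/
theorem rep_c {S : CA.Dat} {θ β : ℝ} (h0 : 0 < θ) (h1 : Ang θ)
    (hβ : Real.cos (θ / 2 + β) = Real.sin θ) (hR : RSW (2 * Real.cos θ)) (w : Bool)
    {L : Filter ℕ} (hL : L ≤ atTop) (hc : L.IsCountablyGenerated) {η : ℕ → Cfg}
    (hη : ∀ᶠ n in L, Dob (η n) (S.D n) (qS S n) (kS S (bcw w) n))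
    {χ χp : ℂ → ℝ} (hχ : Shp Complex.I χ) (hχp : Shp Complex.I χp) {νp : ℂ} {rp : ℝ}
    (hFp : Flat S.P S.bp νp rp) {ρ : ℝ} (hρ : 0 < ρ) (hρr : ρ < rp)
    {c ν : ℂ} {r : ℝ} (hF : Flat S.P c ν r) {e : ℝ} (he : 0 < e) (her : 16 * e ≤ r) {j : Fin 4}
    (hj : ∀ z : ℤ × ℤ, pt ((rk j).t z) = Complex.I * conj ν * pt z) :
    ∃ C : ℝ, 0 < C ∧ ∀ᶠ n : ℕ in L, ∀ (l : ℕ)
      (hl : Even ((-(qw S w n l)).1 + (-(qw S w n l)).2)),
      ‖pt (qw S w n l) - pt (ow w) - n * c‖ ≤ 3 →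
      (∀ R : ℤ, 1 ≤ R → 4 * (R : ℝ) ≤ r * n →
        FltQ ((Mc j (-(qw S w n l)) hl).S (Dw S w n)) eta0 (0, 0) R false false) →
      |((Vale.Agent.P167.N.H542.Q.BD.famB (bdG S θ β (bcw w) (bcw_in w S.l) L hL hc η hη)) h0 h1 hβ).V n
          (fun z => -θ * fb χ ν c e z + θ * fb χp νp S.bp ρ z) -
        Ex (2 * Real.cos θ) (Dw S w n) eta0 (XG θ (qw S w n) (Dw S w n) (S.l * n)
          fun z => θ * cms (fb χp νp S.bp ρ) (1 / n) (z - ow w) -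
            θ * F0 χ (n * e) ((Mc j (-(qw S w n l)) hl).t z))| ≤ C / n := by
  have h1_lt := h1.lt
  have hr0 := hF.pos
  have hbc := fb_bp hχ hF he (by linarith)
  have hbp := fb_bp hχp hFp hρ hρr
  obtain ⟨κ1, hκ1, hs1⟩ := H542.Dt.exists_supp S hbc.test
  obtain ⟨κ2, hκ2, hs2⟩ := H542.Dt.exists_supp S hbp.test
  obtain ⟨M1, hM1, hb1⟩ := H542.Dt.exists_bd hbc.test
  obtain ⟨M2, hM2, hb2⟩ := H542.Dt.exists_bd hbp.test
  obtain ⟨B, hB0, hB⟩ := shp_bd hχ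
  obtain ⟨d, hd0, hd⟩ := shp_supp hχ
  obtain ⟨Lc, hLc0, hLc⟩ := shp_lip hχ
  obtain ⟨κ, hκ, k1, k2, k3, k4⟩ : ∃ κ : ℝ, 0 < κ ∧ κ ≤ κ1 ∧ κ ≤ κ2 ∧ κ ≤ d * e / 2 ∧ κ ≤ e :=
    ⟨min (min κ1 κ2) (min (d * e / 2) e), by positivity,
      (min_le_left _ _).trans (min_le_left _ _), (min_le_left _ _).trans (min_le_right _ _),
      (min_le_right _ _).trans (min_le_left _ _), (min_le_right _ _).trans (min_le_right _ _)⟩
  obtain ⟨Cm, hCm⟩ : ∃ Cm : ℝ, Cm = θ * (M1 + M2 + B / e ^ 2) + 1 := ⟨_, rfl⟩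
  have hCm0 : 0 < Cm := by rw [hCm]; positivity
  have hCmA : θ * (M2 + M1) ≤ Cm := by
    rw [hCm]
    have : 0 ≤ θ * (B / e ^ 2) := by positivity
    nlinarith
  have hCmB : θ * (M2 + B / e ^ 2) ≤ Cm := by
    rw [hCm]
    have : 0 ≤ θ * M1 := by positivity
    nlinarith
  set X := bdG S θ β (bcw w) (bcw_in w S.l) L hL hc η hη with hX
  obtain ⟨C0, hC0, hsh⟩ := H208.SH.shift X h0 h1 hβ hR hκ hCm0
  have hXL : X.L = L := rfl
  rw [hXL] at hsh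
  obtain ⟨E, hE⟩ : ∃ E : ℝ, E = θ * (Lc * 7) / e ^ 3 / Cm := ⟨_, rfl⟩
  have hE0 : 0 ≤ E := by rw [hE]; positivity
  refine ⟨C0 * E + 1, by positivity, ?_⟩
  have t1 : ∀ᶠ n : ℕ in atTop, E ≤ (n : ℝ) := tendsto_natCast_atTop_atTop.eventually_ge_atTop _
  have t2 : ∀ᶠ n : ℕ in atTop, 2 / (d * e) ≤ (n : ℝ) :=
    tendsto_natCast_atTop_atTop.eventually_ge_atTop _
  have t3 : ∀ᶠ n : ℕ in atTop, 2 / e ≤ (n : ℝ) := tendsto_natCast_atTop_atTop.eventually_ge_atTop _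
  filter_upwards [hsh, hL hs1, hL hs2, hL t1, hL t2, hL t3, hL (eventually_gt_atTop 0),
    V_kind (β := β) S w h0 h1 hL hη] with n hsh hs1 hs2 t1 t2 t3 hn0 hV l hl hnear hflt
  have hn : (0 : ℝ) < n := by exact_mod_cast hn0
  have hn1 : (1 : ℝ) ≤ n := by exact_mod_cast hn0
  have hκ0 : 0 ≤ ⌊κ * n⌋ := Int.floor_nonneg.2 (by positivity)
  have hκ1' : (⌊κ * n⌋ : ℝ) ≤ κ1 * n :=
    (Int.floor_le (κ * n)).trans (mul_le_mul_of_nonneg_right k1 hn.le)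
  have hκ2' : (⌊κ * n⌋ : ℝ) ≤ κ2 * n :=
    (Int.floor_le (κ * n)).trans (mul_le_mul_of_nonneg_right k2 hn.le)
  -- the lattice functions
  set M := Mc j (-(qw S w n l)) hl with hM
  obtain ⟨F, hFd⟩ : ∃ F : ℤ × ℤ → ℝ, F = cms (fun z => -θ * fb χ ν c e z + θ * fb χp νp S.bp ρ z)
    (1 / n) := ⟨_, rfl⟩
  have hF' : ∀ z, F z = θ * cms (fb χp νp S.bp ρ) (1 / n) z - θ * cms (fb χ ν c e) (1 / n) z := by
    intro z
    rw [hFd]
    exact cms_two hbc.test hbp.test θ n z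
  obtain ⟨G, hG⟩ : ∃ G : ℤ × ℤ → ℝ, G = fun z => θ * cms (fb χp νp S.bp ρ) (1 / n) z -
    θ * F0 χ (n * e) (M.t (z + ow w)) := ⟨_, rfl⟩
  have hne : 0 < (n : ℝ) * e := by positivity
  have hGs : ∀ z, F0 χ (n * e) (M.t (z + ow w)) ≠ 0 → z ∈ sites (ero S.Q n ⌊κ * n⌋) := fun z hz =>
    supp_G hd0 hd he her hκ k3 k4 hn0 t2 t3 hl hflt hz
  have c1 : ∀ z, |cms (fb χ ν c e) (1 / n) z| ≤ M1 / (n : ℝ) ^ 2 := H542.Dt.cms_abs_le hb1 hn0
  have c2 : ∀ z, |cms (fb χp νp S.bp ρ) (1 / n) z| ≤ M2 / (n : ℝ) ^ 2 := H542.Dt.cms_abs_le hb2 hn0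
  have c3 : ∀ z, |F0 χ (n * e) z| ≤ B / e ^ 2 / (n : ℝ) ^ 2 := by
    intro z
    refine (F0_le hB hne z).trans (le_of_eq ?_)
    rw [mul_pow, mul_comm, div_div]
  have hn2 : (0 : ℝ) < (n : ℝ) ^ 2 := by positivity
  have key := hsh F G ?_ ?_ ?_ ?_ ?_ ?_ (E / n) (by positivity) ?_ ?_
  · have e1 : ((Vale.Agent.P167.N.H542.Q.BD.famB X h0 h1 hβ).V n (fun z => -θ * fb χ ν c e z + θ * fb χp νp S.bp ρ z)) =
        Ex (2 * Real.cos θ) (S.D n) (X.η n) (QX.XB θ β (X.q n) (S.D n) (X.k n) F) := by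
      rw [hFd]
      exact H542.Q.BD.famB_V X h0 h1 hβ n _
    have e2 : Ex (2 * Real.cos θ) (S.D n) (X.η n) (QX.XB θ β (X.q n) (S.D n) (X.k n) G) =
        Ex (2 * Real.cos θ) (Dw S w n) eta0 (XG θ (qw S w n) (Dw S w n) (S.l * n)
          fun z => θ * cms (fb χp νp S.bp ρ) (1 / n) (z - ow w) - θ * F0 χ (n * e) (M.t z)) := by
      refine (hV G).trans ?_
      rw [hG]
      simp only [sub_add_cancel]
    rw [e1, ← e2]
    refine key.trans ?_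
    rw [← mul_div_assoc]
    exact div_le_div_of_nonneg_right (by linarith) hn.le
  · intro z hz
    rw [hF'] at hz
    by_cases h5 : cms (fb χp νp S.bp ρ) (1 / n) z = 0
    · exact hs1 _ hκ0 hκ1' z (ne_two hz h5)
    · exact hs2 _ hκ0 hκ2' z h5
  · intro z hz
    rw [hG] at hz
    by_cases h5 : cms (fb χp νp S.bp ρ) (1 / n) z = 0
    · exact hGs z (ne_two hz h5)
    · exact hs2 _ hκ0 hκ2' z h5
  · intro z
    rw [hF']
    exact two_bd h0 hn2 (c2 z) (c1 z) hCmA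
  · intro z
    rw [hG]
    exact two_bd h0 hn2 (c2 z) (c3 _) hCmB
  · rw [hFd]
    exact sum_F hbc.test hbp.test hbc.mass hbp.mass θ hn0
  · rw [hG]
    exact fsum_G hbp.test hbp.mass hχ hne hn0 θ ((Equiv.addRight (ow w)).trans M.t)
  · rw [div_le_one hn]
    exact t1
  · intro z
    rw [hF', hG, hE]
    exact cmp_FG hχ hLc0 hLc h0 hF.norm he hj hn0 hl hnear hCm0 z

end Vale.Agent.P167.N.H411.Q
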