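import Vale.Agent.P167.N.Kit
import Vale.Agent.P167.N.H411.Q.Sup
import Vale.Agent.P167.N.H411.Q.Zn
import Vale.Agent.P167.N.H411.Q.LocT
import Vale.Agent.P167.N.H411.Q.Fix
import Vale.Agent.P167.N.H542.Q.FamB
import Vale.Agent.P167.H411.Q.LocZ

/-! generated from Vale.Agent.P167.H411.Q.LocZ (q < 1 port) -/

set_option autoImplicit false

namespace Vale.Agent.P167.N.H411.Q

open Vale.Agent.P167.H411.Q Vale.Agent.P167.H411

open Finset Filter Topology MeasureTheory Vale.Agent.P167 Vale.Agent.P167.BR Vale.Agent.P167.FK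

open scoped ComplexConjugate

open Vale.Agent.P167.E6 (IsPolygon Encloses pt)

open Vale.Agent.P167.H135 (Mov rk tra)

open Vale.Agent.P167.H562.QM (FltQ)

open Vale.Agent.P167.QB (XG zS Nf Bq' dlt)

open Vale.Agent.P167.H825.Q (Bc qS kS bdG)

open Vale.Agent.P167.H718 (Dob)

open Vale.Agent.P167.CA (cms)

open Vale.Agent.P167.H208.SH (F0)

open Vale.Agent.P167.H411.B7 (Shp)

open Vale.Agent.P167.BVP (Flat Test)

open Vale.Agent.P167.H519 (IsLim)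

/-- **The charge `- θ` at a flat point is invisible**, free (`w = false`) and wired (`w = true`)
family, with the normalisation `tW`. -/
theorem locT {S : CA.Dat} {θ β : ℝ} (h0 : 0 < θ) (h1 : Ang θ)
    (hβ : Real.cos (θ / 2 + β) = Real.sin θ) (hR : RSW (2 * Real.cos θ)) {P : Measure Cfg}
    (hP : IsLim (2 * Real.cos θ) P) (hU : Vale.Agent.P167.N.H411.Q.S_unsM θ P) (w : Bool)
    {L : Filter ℕ} (hL : L ≤ atTop) (hc : L.IsCountablyGenerated) {η : ℕ → Cfg}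
    (hη : ∀ᶠ n in L, Dob (η n) (S.D n) (qS S n) (kS S (bcw w) n))
    {χp : ℂ → ℝ} (hχp : Shp Complex.I χp) {νp : ℂ} {rp : ℝ} (hFp : Flat S.P S.bp νp rp)
    (hps : PSide θ P χp S νp rp w) {χ : ℂ → ℝ} (hχ : Shp Complex.I χ) :
    LocT θ ((Vale.Agent.P167.N.H542.Q.BD.famB (bdG S θ β (bcw w) (bcw_in w S.l) L hL hc η hη)) h0 h1 hβ) χp νp rp χ
      (zN θ χ) (tW θ S w χp νp) := by
  have h1_lt := h1.lt
  refine ⟨fun ρ n => tW_pos θ S w χp νp ρ n, fun ε₀ hε₀ => ?_⟩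
  obtain ⟨ε, hε, hε1, hεε⟩ : ∃ ε : ℝ, 0 < ε ∧ ε ≤ 1 ∧ ε ≤ ε₀ :=
    ⟨min ε₀ 1, by positivity, min_le_right _ _, min_le_left _ _⟩
  obtain ⟨Kp, hKp⟩ := hps
  obtain ⟨Kf, hKf1, hKf⟩ := bq_F0 hχ h0
  obtain ⟨Kz, hKz1, hKz⟩ := zN_bds h0 h1 hR hP hχ
  obtain ⟨K, hK1, hK2, hK3, hK4⟩ : ∃ K : ℝ, Kp ≤ K ∧ Kf ≤ K ∧ Kz ≤ K ∧
      Vale.Agent.P167.N.QB.KW θ ≤ K :=
    ⟨max (max Kp (Vale.Agent.P167.N.QB.KW θ)) (max Kf Kz),
      (le_max_left _ _).trans (le_max_left _ _), (le_max_left _ _).trans (le_max_right _ _),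
      (le_max_right _ _).trans (le_max_right _ _), (le_max_right _ _).trans (le_max_left _ _)⟩
  have hK : 1 ≤ K := hKf1.trans hK2
  obtain ⟨⟨τ1, hτ1, hbp⟩, cw, Cw, αw, τ2, hcw, hCw, hαw, hτ2, hW⟩ := hKp K hK1
  obtain ⟨cz, Cz, rz, hcz, hCz, hzb⟩ := hKz K hK3
  have hf0 := hKf K hK2
  obtain ⟨r0, Λ, α, C, hr0, hΛ, hα, hC, huns⟩ : ∃ (r0 : ℝ) (Λ : ℤ) (α C : ℝ), 1 ≤ r0 ∧ 1 ≤ Λ ∧
    0 < α ∧ 0 < C ∧ UnsF θ P K r0 Λ α C := Vale.Agent.P167.N.H411.Q.uns_fix hU hK4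
  have hδ : 0 < ε / 6 * (cz * cw) := by positivity
  obtain ⟨th, hth0, e1, e2, e3, e4, e5, e6⟩ := exists_th (C := C) (Cw := Cw) hΛ hδ hε hα hαw hτ1 hτ2
  refine ⟨th, hth0, fun ρ hρ hρp c ν r hF hb hρr e he her => ?_⟩
  have hrp := hFp.pos
  have hr := hF.pos
  obtain ⟨j, hj, hwc⟩ := H980.ND.win_c S hF hb
  obtain ⟨jp, hjp, hwp⟩ := H980.ND.win_p S hFp
  have hthr : th * r ≤ 1 / 48 * r := mul_le_mul_of_nonneg_right e5 hr.le
  have hthp : th * rp ≤ 1 / 48 * rp := mul_le_mul_of_nonneg_right e5 hrp.le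
  have her16 : 16 * e ≤ r := by linarith
  have hρrp : ρ < rp := by linarith
  obtain ⟨C1, hC1, hrep⟩ := rep_c h0 h1 hβ hR w hL hc hη hχ hχp hFp hρ hρrp hF he her16 hj
  obtain ⟨c3, hc3, hrat⟩ := nf_ratio (P := P) h0 h1 hR hP hK he hρ
  have hm1 : th * rp ≤ τ2 / 2 * rp := mul_le_mul_of_nonneg_right e4 hrp.le
  have hm2 : th * r ≤ τ2 / 2 * r := mul_le_mul_of_nonneg_right e4 hr.le
  have hm3 : 0 < τ2 * rp := by positivity
  have hmin : ρ ≤ τ2 * min rp (r / 2) := by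
    have a1 : ρ ≤ τ2 * rp := by linarith
    have a2 : ρ ≤ τ2 * (r / 2) := by linarith
    rcases min_choice rp (r / 2) with h | h <;> rw [h] <;> assumption
  have hmin0 : 0 < min rp (r / 2) := by positivity
  have hbb : Cw * (ρ / min rp (r / 2)) ^ αw ≤ ε / 6 := by
    refine le_trans (mul_le_mul_of_nonneg_left (Real.rpow_le_rpow (by positivity) ?_ hαw.le)
      hCw.le) e2
    rw [div_le_iff₀ hmin0]
    have a3 : 0 < th * rp := by positivity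
    rcases min_choice rp (r / 2) with h | h <;> rw [h] <;> linarith
  have hWn := hW (r / 2) ρ (by positivity) hρ hmin
  have hbpn := hbp ρ hρ (hρp.trans (mul_le_mul_of_nonneg_right e3 hrp.le)) jp hjp
  have big : ∀ (a x : ℝ), 0 < a → ∀ᶠ n : ℕ in atTop, x ≤ (n : ℝ) * a := fun a x ha =>
    (tendsto_natCast_atTop_atTop.atTop_mul_const ha).eventually_ge_atTop _
  filter_upwards [hrep, hL (hwc w), hL (hwp w), hL hrat, hL hWn, hL hbpn, hL (eventually_gt_atTop 0),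
    hL (big e (8 * K) he), hL (big e rz he), hL (big e r0 he), hL (big e 1 he), hL (big ρ r0 hρ),
    hL (big ρ 1 hρ), hL (big r 96 hr), hL (big (8 * e ^ 2) r (by positivity)),
    hL (big (ε * (cz * cw * c3)) (6 * C1) (by positivity))] with n hrep hwc hwp hrat hWn hbpn hn0
      b11 b12 b13 b14 b21 b22 b3 b4 b5
  have hn : (0 : ℝ) < n := by exact_mod_cast hn0
  obtain ⟨l, hel, hl0, hll, hnear, hflt⟩ := hwc
  have hfar := far_w hn0 hb hnear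
  have hEv : Evl S w n l := by
    refine ⟨hl0, hll, ?_⟩
    have h5 := hel.neg
    have e0 : -((-(qw S w n l)).1 + (-(qw S w n l)).2) = (qw S w n l).1 + (qw S w n l).2 := by
      simp only [Prod.fst_neg, Prod.snd_neg]; ring
    rwa [e0] at h5
  have hNp : 0 < Nf θ K P (rN n ρ) := QB.Nf_pos _ _ _ _
  have hNc : 0 < Nf θ K P (rN n e) := QB.Nf_pos _ _ _ _
  obtain ⟨g1, g2⟩ := t_n hNp hcw hWn b3 hEv hfar
  have hrepn := hrep l hel hnear hflt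
  have hunsn := uns_n hΛ hα hC huns w hr hrp hth0 e5 e6 hρp hρr her he hn0 b13 b14 b21 b22 b3 b4
    hel hll hflt hwp hfar (hf0 n e b11) hbpn
  have hfin := num_fin hε1 hn hNc hNp hcz hcw hrepn hunsn
    (hzb n e b12).1 g1 hrat (by linarith) e1 hbb g2
  refine hfin.trans (mul_le_mul_of_nonneg_right hεε ?_)
  have h7 := tW_pos θ S w χp νp ρ n
  have h8 : 0 < zN θ χ n e := lt_of_lt_of_le (by positivity) (hzb n e b12).1
  positivity

/-- **The charge `- θ` at a flat point is invisible**, free (`w = false`) and wired (`w = true`)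
family. -/
theorem locZ {S : CA.Dat} {θ β : ℝ} (h0 : 0 < θ) (h1 : Ang θ)
    (hβ : Real.cos (θ / 2 + β) = Real.sin θ) (hR : RSW (2 * Real.cos θ)) {P : Measure Cfg}
    (hP : IsLim (2 * Real.cos θ) P) (hU : Vale.Agent.P167.N.H411.Q.S_unsM θ P) (w : Bool)
    {L : Filter ℕ} (hL : L ≤ atTop) (hc : L.IsCountablyGenerated) {η : ℕ → Cfg}
    (hη : ∀ᶠ n in L, Dob (η n) (S.D n) (qS S n) (kS S (bcw w) n))
    {χp : ℂ → ℝ} (hχp : Shp Complex.I χp) {νp : ℂ} {rp : ℝ} (hFp : Flat S.P S.bp νp rp)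
    (hps : PSide θ P χp S νp rp w) {χ : ℂ → ℝ} (hχ : Shp Complex.I χ) :
    LocZ θ ((Vale.Agent.P167.N.H542.Q.BD.famB (bdG S θ β (bcw w) (bcw_in w S.l) L hL hc η hη)) h0 h1 hβ) χp νp rp χ
      (zN θ χ) :=
  (locT h0 h1 hβ hR hP hU w hL hc hη hχp hFp hps hχ).locZ

/-- **[Q-ND] (Q3) + (Q5)** for the free and the wired family of a lattice polygon, any outside
configurations. -/
theorem ndz_of {S : CA.Dat} {θ β : ℝ} (h0 : 0 < θ) (h1 : Ang θ)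
    (hβ : Real.cos (θ / 2 + β) = Real.sin θ) (hR : RSW (2 * Real.cos θ)) {P : Measure Cfg}
    (hP : IsLim (2 * Real.cos θ) P) (hU : Vale.Agent.P167.N.H411.Q.S_unsM θ P)
    {L : Filter ℕ} (hL : L ≤ atTop) (hc : L.IsCountablyGenerated) {η η' : ℕ → Cfg}
    (hη : ∀ᶠ n in L, Dob (η n) (S.D n) (qS S n) (kS S .free n))
    (hη' : ∀ᶠ n in L, Dob (η' n) (S.D n) (qS S n) (kS S .wired n))
    {χp : ℂ → ℝ} (hχp : Shp Complex.I χp) {νp : ℂ} {rp : ℝ} (hFp : Flat S.P S.bp νp rp)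
    (hps : ∀ w, PSide θ P χp S νp rp w) :
    NDz θ ((Vale.Agent.P167.N.H542.Q.BD.famB (bdG S θ β .free trivial L hL hc η hη)) h0 h1 hβ)
      ((Vale.Agent.P167.N.H542.Q.BD.famB (bdG S θ β .wired trivial L hL hc η' hη')) h0 h1 hβ) νp rp χp (zN θ) :=
  fun _ hχ => ⟨locZ h0 h1 hβ hR hP hU false hL hc hη hχp hFp (hps false) hχ,
    locZ h0 h1 hβ hR hP hU true hL hc hη' hχp hFp (hps true) hχ⟩

end Vale.Agent.P167.N.H411.Q
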