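import Vale.Agent.P167.N.Kit
import Vale.Agent.P167.N.H208.SH.PS3
import Vale.Agent.P167.N.H411.Q.LocZ
import Vale.Agent.P167.N.H542.Q.FamB
import Vale.Agent.P167.N.H542.Q.Um3
import Vale.Agent.P167.N.H662.L.Lay7
import Vale.Agent.P167.N.KitQ
import Vale.Agent.P167.H411.Q.NDzF

/-! generated from Vale.Agent.P167.H411.Q.NDzF (q < 1 port) -/

set_option autoImplicit false

open Set Filter Topology MeasureTheory

open scoped ComplexConjugate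

namespace Vale.Agent.P167.N.H411.Q

open Vale.Agent.P167.H411.Q Vale.Agent.P167.H411

open Vale.Agent.P167 Vale.Agent.P167.BR Vale.Agent.P167.FK

open Vale.Agent.P167.BVP (Flat)

open Vale.Agent.P167.H411.B7 (Shp)

open Vale.Agent.P167.H519 (IsLim)

open Vale.Agent.P167.H192.Q (SRSW)

open Vale.Agent.P167.H825.Q (Bc bdQ bdG dob_qS)

open Vale.Agent.P167.H718 (etaW)

/-- **The input on the side of the base point**: one shape for all polygons. -/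
theorem pSide_of {θ : ℝ} {P : Measure Cfg} (h0 : 0 < θ) (h1 : Ang θ)
    (hR : RSW (2 * Real.cos θ)) (hS : SRSW (2 * Real.cos θ)) (hP : IsLim (2 * Real.cos θ) P) :
    ∃ χp : ℂ → ℝ, Shp Complex.I χp ∧ ∀ (S : CA.Dat) (νp : ℂ) (rp : ℝ), Flat S.P S.bp νp rp →
      ∀ w, PSide θ P χp S νp rp w := by
  have h1_lt := h1.lt
  obtain ⟨χp, hχp, α, hα, K₀, -, h⟩ := H208.SH.pside h0 h1 hR hS hP
  refine ⟨χp, hχp, fun S νp rp hF w => ⟨K₀, fun K hK => ?_⟩⟩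
  obtain ⟨h2, c, C, τ, hc, hC, hτ, h3⟩ := h K hK
  refine ⟨⟨1, one_pos, fun ρ hρ _ j hj => h2 S νp rp hF w j hj ρ hρ⟩, c, C, α, τ, hc, hC, hα, hτ,
    fun r ρ hr hρ hρτ => ?_⟩
  filter_upwards [h3 S νp rp hF w r hr ρ hρ hρτ] with n hn l l' hl hl'
  exact hn l l' ⟨hl.1.1, hl.1.2.1, hl.1.2.2, hl.2⟩ ⟨hl'.1.1, hl'.1.2.1, hl'.1.2.2, hl'.2⟩

/-- **[Q-ND] (Q3) + (Q5)** without hypotheses. -/
theorem ndz_fin {θ β : ℝ} (h0 : 0 < θ) (h1 : Ang θ)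
    (hβ : Real.cos (θ / 2 + β) = Real.sin θ) :
    ∃ χp : ℂ → ℝ, Shp Complex.I χp ∧ ∀ (S : CA.Dat) (hfr : Bc.free.In S.l) (hwi : Bc.wired.In S.l)
      {L : Filter ℕ} (hL : L ≤ atTop) (hc : L.IsCountablyGenerated) {νp : ℂ} {rp : ℝ},
      Flat S.P S.bp νp rp →
      NDz θ ((Vale.Agent.P167.N.H542.Q.BD.famB (bdQ S θ β .free hfr L hL hc)) h0 h1 hβ)
        ((Vale.Agent.P167.N.H542.Q.BD.famB (bdQ S θ β .wired hwi L hL hc)) h0 h1 hβ) νp rp χp (zN θ) := by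
  have h1_lt := h1.lt
  have h2 : Kit (2 * Real.cos θ) := h1.kit
  have hR := h2.rsw
  have hS := h2.srsw
  obtain ⟨P, hP⟩ := H662.L.exists_isLim h2 hR
  obtain ⟨χp, hχp, h⟩ := pSide_of h0 h1 hR hS hP
  refine ⟨χp, hχp, fun S hfr hwi L hL hc νp rp hF => ?_⟩
  exact ndz_of h0 h1 hβ hR hP (H542.Q.Um.s_unsM h0 h1 hR hP) hL hc (hL (dob_qS S .free))
    (hL (dob_qS S .wired)) hχp hF (h S νp rp hF)

end Vale.Agent.P167.N.H411.Q
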