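import Vale.Agent.P167.N.H411.Q.As2
import Vale.Agent.P167.N.H411.Q.LocT

/-!
# P167, the range `0 < q < 1`: the output of the block Q-ID for the charge `π - 2 μ`

`LocT` is `LocZ` with a given normalisation `t`. `outP_log` : the functional of the Dobrushin polygon
with the charge `π - 2 μ` at the flat point `d` and `- (π - 2 μ)` at the base point, in terms of
`t`, `z` and the conformal map.
-/

set_option autoImplicit false

open Set Metric Filter Topology MeasureTheory Bornology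

open scoped ComplexConjugate ContDiff

namespace Vale.Agent.P167.N.H411.Q

open Vale.Agent.P167.H411.Q Vale.Agent.P167.H411

open Vale.Agent.P153.R2.R1 Vale.Agent.P167.H411.B7

open Vale.Agent.P167.BVP (Flat Test lpot npot)

open Vale.Agent.P167.CA (Dat Pair)

open Vale.Agent.P167.CAQ (Fam Arc PotLim)

/-- The constant of the base point. -/
noncomputable def kbp (χ : ℂ → ℝ) : ℝ :=
  1 / Real.pi * ((∫ z, χ z * Real.log ‖z‖) - JJ 0 Complex.I χ χ / 2)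

/-- The self-energy at the base point, without the conformal radius. -/
theorem en_base {ψ : ℂ → ℂ} {P : Set ℂ} {a p : ℂ} (h : IsU ψ P a p)
    (hinj : InjOn ψ {z | 0 ≤ z.im}) (hne : ∀ z : ℂ, 0 ≤ z.im → ψ z ≠ p) {ν : ℂ} {r η : ℝ}
    (hF : Flat P p ν r) (ha : a ∉ ball p r) {χ : ℂ → ℝ} (hχ : Shp Complex.I χ) (hη0 : 0 < η)
    (hη : η ≤ r / 8400) :
    |CA.en (ginv ψ) (fb χ ν p η) (fb χ ν p η) + 1 / Real.pi * ll ψ (fb χ ν p η) - kbp χ| ≤
      5400 * (η / r) := by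
  have hr := hF.pos
  have hφ := fb_bp hχ hF hη0 (by linarith)
  have hJ := JJ_fb hχ (c := p) hF.norm hη0
  have hI := int_log_fb hχ (c := p) hF.norm hη0
  obtain ⟨H, hX⟩ := exists_ext (swp_isU h) (swp_inj hinj hne) hF ha
  have hg := ginv_conf h hinj
  have h1 := en_flat hg hφ.test hφ.test (q := p) hF.norm (u := fun z => 2 * Real.log ‖ginv ψ z‖)
    (L := 2 * Real.log ‖deriv H p‖) (ε := 16800 * (η / r)) (log_ginv_contOn h hinj 2) (by
      intro z hz w hw hzw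
      exact ker_near_inf h hinj hne hX hF hη (hφ.sub hz) (hφ.sub hw) hzw)
  rw [hφ.mass, hφ.abs] at h1
  have h2 := ll_p h hinj hne hX hF hη hφ
  rw [hI] at h2
  have e0 : ∫ z, fb χ ν p η z * (2 * Real.log ‖ginv ψ z‖) = 2 * ll ψ (fb χ ν p η) := by
    have := ll_eq_lg ψ (fb χ ν p η)
    unfold lg at this
    linarith
  rw [e0, hJ] at h1
  have e1 : CA.en (ginv ψ) (fb χ ν p η) (fb χ ν p η) =
      ∫ z, fb χ ν p η z * npot (ginv ψ) (fb χ ν p η) z := rfl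
  rw [← e1] at h1
  obtain ⟨E, hE⟩ : ∃ E, E = CA.en (ginv ψ) (fb χ ν p η) (fb χ ν p η) := ⟨_, rfl⟩
  obtain ⟨l, hl⟩ : ∃ l, l = ll ψ (fb χ ν p η) := ⟨_, rfl⟩
  obtain ⟨D, hD⟩ : ∃ D, D = Real.log ‖deriv H p‖ := ⟨_, rfl⟩
  rw [← hE, ← hl, ← hD] at h1
  rw [← hl, ← hD] at h2
  rw [← hE, ← hl]
  unfold kbp
  obtain ⟨I, hI'⟩ : ∃ I, I = ∫ z, χ z * Real.log ‖z‖ := ⟨_, rfl⟩
  obtain ⟨J, hJ'⟩ : ∃ J, J = JJ 0 Complex.I χ χ := ⟨_, rfl⟩
  rw [← hI'] at h2
  rw [← hJ'] at h1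
  rw [← hI', ← hJ']
  have hpi := Real.pi_pos
  have hs : 0 ≤ η / r := by positivity
  have k1 := pi_c2
  have e2 : E + 1 / Real.pi * l - 1 / Real.pi * (I - J / 2) =
      (E + 1 / (2 * Real.pi) * (2 * l * 1 + 1 * (2 * l) + 2 * D * 1 * 1 +
        (2 * Real.log η + J))) - 1 / Real.pi * (l + (D + (Real.log η + I))) := by
    field_simp
    ring
  have h3 : |1 / Real.pi * (l + (D + (Real.log η + I)))| ≤ 1 / Real.pi * (8400 * (η / r)) := by
    rw [abs_mul, abs_of_pos (by positivity : 0 < 1 / Real.pi)]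
    exact mul_le_mul_of_nonneg_left h2 (by positivity)
  have h4 : 1 / (2 * Real.pi) * (16800 * (η / r)) ≤ 2700 * (η / r) := by
    calc _ = 1 / (2 * Real.pi) * 16800 * (η / r) := by ring
      _ ≤ 2700 * (η / r) := mul_le_mul_of_nonneg_right k1 hs
  have h5 : 1 / Real.pi * (8400 * (η / r)) = 1 / (2 * Real.pi) * (16800 * (η / r)) := by
    field_simp
    ring
  have h7 : 1 / (2 * Real.pi) * (16800 * (η / r) * 1 * 1) =
      1 / (2 * Real.pi) * (16800 * (η / r)) := by ring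
  rw [h7] at h1
  rw [e2]
  rw [abs_le] at h3 ⊢
  have h6 := abs_le.1 h1
  constructor <;> linarith [h6.1, h6.2, h3.1, h3.2]

/-- The arithmetic of the output. -/
theorem alg_outP {μ s₀ s l UD UF Edd Edp Epp ld lp T Ld Ldd κ e₀ e₁ e₃ e₄ e₅ : ℝ}
    (hμ : 0 < μ) (hs₀ : 0 < s₀) (hs : s / 2 * (s₀ + μ) = 1)
    (h1 : |l + s₀ * UD + s / 2 * s₀ ^ 2 * (Edd - 2 * Edp + Epp)| ≤ e₀)
    (h2 : |UD - UF - 1 / Real.pi * (ld - lp)| ≤ e₀)
    (h4 : |μ * UF - s / 2 * μ ^ 2 * (Edd - 2 * Edp + Epp) - T| ≤ 3 * e₀)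
    (h6 : |Edp + 1 / Real.pi * lp| ≤ e₁) (h8 : |Edd + 1 / (2 * Real.pi) * Ldd| ≤ e₃)
    (h9 : |ld - Ld| ≤ e₄) (h10 : |Epp + 1 / Real.pi * lp - κ| ≤ e₅) :
    |l - (-(s₀ / μ) * T + s₀ / Real.pi * (Ldd / 2 - Ld) - s₀ * κ)| ≤
      (1 + s₀ + 3 * (s₀ / μ)) * e₀ + 2 * s₀ * e₁ + s₀ * e₃ + s₀ / Real.pi * e₄ + s₀ * e₅ := by
  have hπ := Real.pi_pos
  have e : l - (-(s₀ / μ) * T + s₀ / Real.pi * (Ldd / 2 - Ld) - s₀ * κ) =
      (l + s₀ * UD + s / 2 * s₀ ^ 2 * (Edd - 2 * Edp + Epp)) -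
      s₀ * (UD - UF - 1 / Real.pi * (ld - lp)) -
      s₀ / μ * (μ * UF - s / 2 * μ ^ 2 * (Edd - 2 * Edp + Epp) - T) -
      s₀ * (Edd + 1 / (2 * Real.pi) * Ldd) + 2 * s₀ * (Edp + 1 / Real.pi * lp) -
      s₀ * (Epp + 1 / Real.pi * lp - κ) - s₀ / Real.pi * (ld - Ld) := by
    have h3 : s / 2 * s₀ ^ 2 * (Edd - 2 * Edp + Epp) +
        s₀ / μ * (s / 2 * μ ^ 2 * (Edd - 2 * Edp + Epp)) = s₀ * (Edd - 2 * Edp + Epp) := by
      have : s₀ / μ * (s / 2 * μ ^ 2 * (Edd - 2 * Edp + Epp)) =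
          s / 2 * s₀ * μ * (Edd - 2 * Edp + Epp) := by field_simp
      rw [this]
      linear_combination (s₀ * (Edd - 2 * Edp + Epp)) * hs
    have h5 : s₀ / μ * (μ * UF) = s₀ * UF := by field_simp
    have h7 : s₀ / μ * (μ * UF - s / 2 * μ ^ 2 * (Edd - 2 * Edp + Epp) - T) =
        s₀ * UF - s₀ / μ * (s / 2 * μ ^ 2 * (Edd - 2 * Edp + Epp)) - s₀ / μ * T := by
      rw [← h5]; ring
    rw [h7]
    have h9 : s₀ * (1 / (2 * Real.pi) * Ldd) = s₀ / Real.pi * (Ldd / 2) := by field_simp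
    have h11 : s₀ * (1 / Real.pi * (ld - lp)) = s₀ / Real.pi * ld - s₀ * (1 / Real.pi * lp) := by
      field_simp
    linear_combination (-1) * h3 + h9 - h11
  have hA : 0 < s₀ / μ := by positivity
  have hB : 0 < s₀ / Real.pi := by positivity
  have k2 : |s₀ * (UD - UF - 1 / Real.pi * (ld - lp))| ≤ s₀ * e₀ := by
    rw [abs_mul, abs_of_pos hs₀]; exact mul_le_mul_of_nonneg_left h2 hs₀.le
  have k4 : |s₀ / μ * (μ * UF - s / 2 * μ ^ 2 * (Edd - 2 * Edp + Epp) - T)| ≤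
      s₀ / μ * (3 * e₀) := by
    rw [abs_mul, abs_of_pos hA]; exact mul_le_mul_of_nonneg_left h4 hA.le
  have k6 : |2 * s₀ * (Edp + 1 / Real.pi * lp)| ≤ 2 * s₀ * e₁ := by
    rw [abs_mul, abs_of_pos (by positivity : 0 < 2 * s₀)]
    exact mul_le_mul_of_nonneg_left h6 (by positivity)
  have k8 : |s₀ * (Edd + 1 / (2 * Real.pi) * Ldd)| ≤ s₀ * e₃ := by
    rw [abs_mul, abs_of_pos hs₀]; exact mul_le_mul_of_nonneg_left h8 hs₀.le
  have k9 : |s₀ / Real.pi * (ld - Ld)| ≤ s₀ / Real.pi * e₄ := by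
    rw [abs_mul, abs_of_pos hB]; exact mul_le_mul_of_nonneg_left h9 hB.le
  have k10 : |s₀ * (Epp + 1 / Real.pi * lp - κ)| ≤ s₀ * e₅ := by
    rw [abs_mul, abs_of_pos hs₀]; exact mul_le_mul_of_nonneg_left h10 hs₀.le
  rw [e]
  generalize l + s₀ * UD + s / 2 * s₀ ^ 2 * (Edd - 2 * Edp + Epp) = a1 at *
  generalize s₀ * (UD - UF - 1 / Real.pi * (ld - lp)) = a2 at *
  generalize s₀ / μ * (μ * UF - s / 2 * μ ^ 2 * (Edd - 2 * Edp + Epp) - T) = a3 at *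
  generalize s₀ * (Edd + 1 / (2 * Real.pi) * Ldd) = a4 at *
  generalize 2 * s₀ * (Edp + 1 / Real.pi * lp) = a5 at *
  generalize s₀ * (Epp + 1 / Real.pi * lp - κ) = a6 at *
  generalize s₀ / Real.pi * (ld - Ld) = a7 at *
  rw [abs_le] at h1 k2 k4 k6 k8 k9 k10 ⊢
  obtain ⟨h11, h12⟩ := h1
  obtain ⟨k21, k22⟩ := k2
  obtain ⟨k41, k42⟩ := k4
  obtain ⟨k61, k62⟩ := k6
  obtain ⟨k81, k82⟩ := k8
  obtain ⟨k91, k92⟩ := k9
  obtain ⟨k101, k102⟩ := k10
  constructor <;> linarith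

/-- The errors. -/
theorem fin_outP {A σ e₀ x y z c ε : ℝ} (hσ : 0 < σ) (hc : 0 < c) (hz : 0 ≤ z) (hzx : z ≤ x)
    (h1 : A * e₀ ≤ ε / 4) (h2 : (5426 * σ + c * 40) * x ≤ ε / 4) (hy : 0 ≤ y)
    (h3 : (5426 * σ + c * 40) * y ≤ ε / 4) (hε : 0 < ε) :
    A * e₀ + 2 * σ * (13 * y) + σ * (2700 * z) + c * (40 * z) + σ * (5400 * y) ≤ ε := by
  have a1 : σ * z ≤ σ * x := mul_le_mul_of_nonneg_left hzx hσ.le
  have a2 : c * z ≤ c * x := mul_le_mul_of_nonneg_left hzx hc.le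
  have a3 : 0 ≤ σ * z := by positivity
  have a4 : 0 ≤ c * y := by positivity
  have a5 : 0 ≤ c * z := by positivity
  have a6 : 0 ≤ σ * y := by positivity
  linarith

/-- One flat mark. -/
structure Mark1 (S : Dat) (a : ℂ) (ψ : ℂ → ℂ) (d νd : ℂ) (rd : ℝ) (xd : ℝ) (d' : ℂ) : Prop where
  flatD : Flat S.P d νd rd
  pD : S.bp ∉ ball d rd
  aD : a ∉ ball d rd
  xD : ψ xd = d
  der : HasDerivWithinAt ψ d' {z | 0 ≤ z.im} xd

theorem Mark1.dist {S : Dat} {a : ℂ} {ψ : ℂ → ℂ} {d νd : ℂ} {rd xd : ℝ} {d' : ℂ}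
    (hM : Mark1 S a ψ d νd rd xd d') : rd ≤ dist d S.bp := by
  have := hM.pD
  rw [mem_ball, not_lt, dist_comm] at this
  exact this

variable {S : Dat} {a : ℂ} {ψ : ℂ → ℂ} {d νd : ℂ} {rd xd : ℝ} {d' : ℂ}

/-- **Output**: the functional of the Dobrushin polygon with the charges `π - 2 μ` at `d`, `- (π - 2 μ)` at
the base point. -/
theorem outP_log {μ : ℝ} {FD FF FW : Fam S} {νa νp : ℂ} {ra rp : ℝ}
    (hT : Tri μ S FD FF FW a νa ra νp rp) (cD : FD.CORE) (cF : FF.CORE)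
    {χp χ : ℂ → ℝ} (hχp : Shp Complex.I χp) (hχ : Shp Complex.I χ) {z : ℕ → ℝ → ℝ}
    {t : ℝ → ℕ → ℝ} (hz : LocT μ FF χp νp rp χ z t)
    (h : IsU ψ S.P a S.bp) (hinj : InjOn ψ {z | 0 ≤ z.im})
    (hne : ∀ z : ℂ, 0 ≤ z.im → ψ z ≠ S.bp)
    (hid : ∀ f, S.FF f → Tendsto (fun n : ℕ => FD.U n f - FF.U n f) FD.L
      (𝓝 (1 / Real.pi * ∫ z, f z * Real.log ‖ginv ψ z‖)))
    (hM : Mark1 S a ψ d νd rd xd d') {ε : ℝ} (hε : 0 < ε) :
    ∃ θ > 0, ∀ η ρ : ℝ, 0 < η → η ≤ θ → 0 < ρ → ρ ≤ θ → ∀ᶠ n : ℕ in FD.L,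
      0 < z n η ∧
      0 < FD.V n (fun w => (Real.pi - 2 * μ) * fb χ νd d η w +
        -(Real.pi - 2 * μ) * fb χp νp S.bp ρ w) ∧
      |Real.log (FD.V n (fun w => (Real.pi - 2 * μ) * fb χ νd d η w +
        -(Real.pi - 2 * μ) * fb χp νp S.bp ρ w)) -
        (-((Real.pi - 2 * μ) / μ) * (Real.log (t ρ n) + Real.log (z n η)) +
          (Real.pi - 2 * μ) / Real.pi *
            ((-2 * Real.log ‖d'‖ + (2 * Real.log η + JJ 0 Complex.I χ χ)) / 2 - Real.log |xd|) -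
          (Real.pi - 2 * μ) * kbp χp)| ≤ ε := by
  have hμ := hT.mu0
  have hμ1 := hT.mu1.lt
  have hπ := Real.pi_pos
  have hs0 : 0 < 2 / (Real.pi - μ) := by
    have : 0 < Real.pi - μ := by linarith
    positivity
  have hsq : 2 / (Real.pi - μ) / 2 * (Real.pi - 2 * μ + μ) = 1 := by
    have : Real.pi - μ ≠ 0 := by linarith
    field_simp
    ring
  set s : ℝ := 2 / (Real.pi - μ) with hs
  have hσ : 0 < Real.pi - 2 * μ := by linarith
  set σ : ℝ := Real.pi - 2 * μ with hσd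
  have hP := Vale.Agent.P167.H411.Q.pair_of_isU h hinj
  have hg := ginv_conf h hinj
  have hrd := hM.flatD.pos
  have hrp := hT.flatP.pos
  set A : ℝ := 1 + σ + 3 * (σ / μ) with hA
  have hA0 : 0 < A := by positivity
  set e₀ : ℝ := min (1 / 2) (ε / (4 * A)) with he₀
  have he₀0 : 0 < e₀ := by positivity
  have he₀1 : A * e₀ ≤ ε / 4 := by
    have : e₀ ≤ ε / (4 * A) := min_le_right _ _
    rw [le_div_iff₀ (by positivity)] at this
    linarith
  obtain ⟨ht, hloc⟩ := hz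
  obtain ⟨θ₁, hθ₁, hloc⟩ := hloc e₀ he₀0
  -- the radius at `p`
  set r : ℝ := min rp (rd / 2) with hr
  have hr0 : 0 < r := by positivity
  have hr1 : r ≤ rp := min_le_left _ _
  have hr3 : r ≤ rd / 2 := min_le_right _ _
  have hFp := flat_le hT.flatP hr0 hr1
  have hap : a ∉ ball S.bp r := fun hx => hT.offP (ball_subset_ball hr1 hx)
  -- the scale
  set θ : ℝ := min (θ₁ * r) (min (r / 8400) (min (ε * r / (4 * (5426 * σ + σ / Real.pi * 40)))
    (ε * r / (4 * (5426 * σ + σ / Real.pi * 40))))) with hθ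
  have hθ0 : 0 < θ := by positivity
  have i1 : θ ≤ θ₁ * r := min_le_left _ _
  have i3 : θ ≤ r / 8400 := (min_le_right _ _).trans (min_le_left _ _)
  have i5 : θ ≤ ε * r / (4 * (5426 * σ + σ / Real.pi * 40)) :=
    (min_le_right _ _).trans ((min_le_right _ _).trans (min_le_left _ _))
  clear_value θ r e₀ A
  refine ⟨θ, hθ0, fun η ρ hη hηθ hρ hρθ => ?_⟩
  have j1 : η ≤ r / 8400 := hηθ.trans i3
  have j2 : ρ ≤ r / 8400 := hρθ.trans i3
  have hρr : ρ < r := by linarith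
  have hφp := fb_bp hχp hFp hρ hρr
  have hφ := fb_bp hχ hM.flatD hη (by linarith)
  have hJ := JJ_fb hχ (c := d) hM.flatD.norm hη
  have g10 := en_base h hinj hne hFp hap hχp hρ j2
  have a1 := hloc ρ hρ (hρθ.trans (i1.trans (mul_le_mul_of_nonneg_left hr1 hθ₁.le))) d νd rd
    hM.flatD hM.pD (hρθ.trans (i1.trans (mul_le_mul_of_nonneg_left (by linarith) hθ₁.le))) η hη
    (hηθ.trans (i1.trans (mul_le_mul_of_nonneg_left (by linarith) hθ₁.le)))
  generalize fb χ νd d η = φ at *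
  generalize fb χp νp S.bp ρ = φp at *
  have hff : S.FF fun z => φ z - φp z := ff_of hφ.test hφp.test (by rw [hφ.mass, hφp.mass])
  have e1 : (fun w => -μ * φ w + μ * φp w) = fun w => -μ * (φ w - φp w) := by funext w; ring
  have e3 : (fun w => σ * φ w + -σ * φp w) = fun w => σ * (φ w - φp w) := by funext w; ring
  rw [e1] at a1
  rw [e3]
  have b1 := U_of_loc cF hP hff he₀0 (by rw [he₀]; exact min_le_left _ _) a1
  rw [hT.LF, hT.sF] at b1
  have hf' := CA.FF.smul hff σ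
  have c1 := (log_V cD hP hf').eventually (Metric.ball_mem_nhds 0 he₀0)
  obtain ⟨k, K, hk, c2⟩ := CAQ.V_bounds cD hP hf'
  have c3 := (hid _ hff).eventually (Metric.ball_mem_nhds _ he₀0)
  -- energies
  have g1 := en_diff hg hφ.test hφp.test
  have hfar := far_bp hφ hM.dist (by linarith) hr3
  have g4 : |CA.en (ginv ψ) φ φp + 1 / (2 * Real.pi) * ((∫ z, φ z) * lg ψ φp)| ≤
      13 * (ρ / r) * ∫ z, |φ z| := en_hp h hinj hne hFp hap j2 hφp hφ.test hfar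
  rw [hφ.mass, hφ.abs] at g4
  have g6 : |CA.en (ginv ψ) φ φ + 1 / (2 * Real.pi) * (-2 * Real.log ‖d'‖ + JJ d νd φ φ)| ≤
      2700 * (η / rd) := en_bb h hinj hM.flatD hM.pD (by linarith) hφ hφ hM.xD hM.der
  have g8 := ll_c h hinj hM.flatD hM.pD hM.aD (by linarith) hφ
  have xd' : ginv ψ d = xd := by rw [← hM.xD]; exact ginv_apply hinj (by simp)
  rw [xd', Complex.norm_real, Real.norm_eq_abs] at g8
  rw [hJ] at g6
  have g9 : ∫ z, (φ z - φp z) * Real.log ‖ginv ψ z‖ = ll ψ φ - ll ψ φp := by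
    unfold ll
    rw [← integral_sub (int_ll h hinj hφ.test) (int_ll h hinj hφp.test)]
    refine integral_congr_ae (Eventually.of_forall fun z => ?_)
    simp only
    ring
  rw [g9] at c3
  have g4' : |CA.en (ginv ψ) φ φp + 1 / Real.pi * ll ψ φp| ≤ 13 * (ρ / r) := by
    have e4 : 1 / (2 * Real.pi) * (1 * lg ψ φp) = 1 / Real.pi * ll ψ φp := by
      rw [ll_eq_lg]
      field_simp
    rw [e4, mul_one] at g4
    exact g4
  filter_upwards [b1, c1, c2, c3] with n hb1 hc1 hc2 hc3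
  obtain ⟨p1, q1⟩ := hb1
  have hzn : 0 < z n η := (mul_pos_iff_of_pos_left (ht ρ n)).1 p1
  refine ⟨hzn, hk.trans_le hc2.1, ?_⟩
  rw [Real.log_mul (ht ρ n).ne' hzn.ne', g1] at q1
  rw [dist_zero_right, Real.norm_eq_abs, CAQ.U_smul, CA.en_smul, g1, hT.sD] at hc1
  rw [Real.dist_eq] at hc3
  have k1 := alg_outP (l := Real.log (FD.V n fun w => σ * (φ w - φp w)))
    (UD := FD.U n fun z => φ z - φp z) (UF := FF.U n fun z => φ z - φp z)
    (T := Real.log (t ρ n) + Real.log (z n η)) (e₀ := e₀) hμ hσ hsq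
    (by
      have e : Real.log (FD.V n fun w => σ * (φ w - φp w)) + σ * FD.U n (fun z => φ z - φp z) +
          s / 2 * σ ^ 2 * (CA.en (ginv ψ) φ φ - 2 * CA.en (ginv ψ) φ φp + CA.en (ginv ψ) φp φp) =
          Real.log (FD.V n fun w => σ * (φ w - φp w)) + σ * FD.U n (fun z => φ z - φp z) +
          s / 2 * (σ ^ 2 *
            (CA.en (ginv ψ) φ φ - 2 * CA.en (ginv ψ) φ φp + CA.en (ginv ψ) φp φp)) := by ring
      rw [e]; exact hc1.le)
    hc3.le q1 g4' g6 g8 g10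
  have hη1 : η / rd ≤ η / r := div_le_div_of_nonneg_left hη.le hr0 (by linarith)
  have w1 : (5426 * σ + σ / Real.pi * 40) * (η / r) ≤ ε / 4 := by
    have h1 := hηθ.trans i5
    rw [le_div_iff₀ (by positivity)] at h1
    rw [mul_div_assoc', div_le_iff₀ hr0]
    linarith
  have w2 : (5426 * σ + σ / Real.pi * 40) * (ρ / r) ≤ ε / 4 := by
    have h1 := hρθ.trans i5
    rw [le_div_iff₀ (by positivity)] at h1
    rw [mul_div_assoc', div_le_iff₀ hr0]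
    linarith
  rw [← hA] at k1
  exact k1.trans (fin_outP hσ (by positivity) (by positivity) hη1 he₀1 w1 (by positivity) w2 hε)

end Vale.Agent.P167.N.H411.Q
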